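import Vale.Agent.Lib.P262F.Finish
import Vale.Agent.Lib.P262F.Lower

/-!
# P262: the order of growth of the Euclidean Steinitz constant is `√d`

Finite families are lists, orderings of a family are the lists `l'` which are permutations of the
list `l`, partial sums are the sums of `l'.take k`.
-/

namespace Vale.Agent.Results.P262.OrderOfGrowth

open scoped ENNReal

/-- The Euclidean Steinitz constant `S₂(d)`: the supremum, over all finite families `l` of vectors
of the unit ball of `ℝ^d` with sum zero, of the minimum over all orderings `l'` of `l` of the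
maximum over `k` of the norm of the sum of the first `k` vectors of `l'`. -/
noncomputable def S2 (d : ℕ) : ℝ≥0∞ :=
  ⨆ (l : List (EuclideanSpace ℝ (Fin d))) (_ : (∀ v ∈ l, ‖v‖ ≤ 1) ∧ l.sum = 0),
    ⨅ (l' : List (EuclideanSpace ℝ (Fin d))) (_ : l'.Perm l), ⨆ k : ℕ, ‖(l'.take k).sum‖ₑ

theorem exists_equiv_of_perm {α : Type*} {l l' : List α} (h : l.Perm l') :
    ∃ e : Fin l.length ≃ Fin l'.length, ∀ i, l'.get (e i) = l.get i := by
  induction h with
  | nil => exact ⟨Equiv.refl _, fun i => rfl⟩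
  | @cons x l₁ l₂ _ ih =>
    obtain ⟨e, he⟩ := ih
    refine ⟨(finSuccEquiv l₁.length).trans ((Equiv.optionCongr e).trans
      (finSuccEquiv l₂.length).symm), fun i => ?_⟩
    refine Fin.cases ?_ (fun j => ?_) i
    · simp
    · have h1 := he j
      simp only [List.get_eq_getElem] at h1
      simp [h1]
  | swap x y l =>
    refine ⟨Equiv.swap 0 1, fun i => ?_⟩
    refine Fin.cases ?_ (fun j => ?_) i
    · rw [Equiv.swap_apply_left]
      rfl
    · refine Fin.cases ?_ (fun k => ?_) j
      · change (x :: y :: l).get (Equiv.swap 0 1 1) = _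
        rw [Equiv.swap_apply_right]
        rfl
      · rw [Equiv.swap_apply_of_ne_of_ne]
        · rfl
        · exact Fin.succ_ne_zero _
        · intro h
          have h2 := congrArg Fin.val h
          simp at h2
  | trans _ _ ih₁ ih₂ =>
    obtain ⟨e₁, h₁⟩ := ih₁
    obtain ⟨e₂, h₂⟩ := ih₂
    exact ⟨e₁.trans e₂, fun i => (h₂ (e₁ i)).trans (h₁ i)⟩

theorem exists_perm_of_perm {α : Type*} {N : ℕ} (v : Fin N → α) {l : List α}
    (h : l.Perm (List.ofFn v)) : ∃ s : Equiv.Perm (Fin N), l = List.ofFn fun i => v (s i) := by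
  obtain ⟨e, he⟩ := exists_equiv_of_perm h
  have hlen : l.length = N := by rw [h.length_eq, List.length_ofFn]
  refine ⟨(finCongr hlen.symm).trans (e.trans (finCongr List.length_ofFn)), ?_⟩
  refine List.ext_get (by rw [List.length_ofFn, hlen]) fun i h1 h2 => ?_
  rw [List.get_ofFn]
  have h3 := he ⟨i, h1⟩
  rw [List.get_ofFn] at h3
  rw [← h3]
  rfl

theorem result : ∃ c C : ℝ, 0 < c ∧ ∀ d : ℕ, 1 ≤ d →
    ENNReal.ofReal (c * √(d : ℝ)) ≤ S2 d ∧ S2 d ≤ ENNReal.ofReal (C * √(d : ℝ)) := by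
  obtain ⟨C, hC⟩ := Vale.Agent.P262F.steinitz_sharp
  refine ⟨2 / 5, C, by norm_num, fun d hd => ⟨?_, ?_⟩⟩
  · obtain ⟨N, v, hv, hsum, hlow⟩ := Vale.Agent.P262F.lower_all d hd
    unfold S2
    refine le_iSup₂_of_le (List.ofFn v) ⟨?_, ?_⟩ (le_iInf₂ fun l' hl' => ?_)
    · intro x hx
      obtain ⟨a, rfl⟩ := (List.mem_ofFn' v x).1 hx
      exact hv a
    · rw [List.sum_ofFn, hsum]
    · obtain ⟨s, rfl⟩ := exists_perm_of_perm v hl'
      obtain ⟨k, hk⟩ := hlow s
      refine le_iSup_of_le k ?_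
      rw [List.sum_take_ofFn, ← ofReal_norm]
      exact ENNReal.ofReal_le_ofReal hk
  · unfold S2
    refine iSup₂_le fun l hl => ?_
    obtain ⟨s, hs⟩ := hC d l.length l.get (fun a => hl.1 _ (List.get_mem l a))
      (by rw [← List.sum_ofFn, List.ofFn_get, hl.2])
    refine iInf₂_le_of_le (List.ofFn fun i => l.get (s i)) ?_ (iSup_le fun k => ?_)
    · have h1 := Equiv.Perm.ofFn_comp_perm s l.get
      rw [List.ofFn_get] at h1
      exact h1
    · rw [List.sum_take_ofFn, ← ofReal_norm]
      exact ENNReal.ofReal_le_ofReal (hs k)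

end Vale.Agent.Results.P262.OrderOfGrowth
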