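import Vale.Agent.Lib.P262F.Finish
import Vale.Agent.Lib.P262F.Lower

/-! P262: the Euclidean Steinitz constant has order exactly √d (the Euclidean
Steinitz-Bergstrom conjecture), with the elementary matching lower bound. -/

namespace Vale.Agent.Results.P262.SteinitzBergstrom

open Finset

theorem result :
    (∃ C : ℝ, ∀ (d N : ℕ) (v : Fin N → EuclideanSpace ℝ (Fin d)),
      (∀ a, ‖v a‖ ≤ 1) → ∑ a, v a = 0 →
      ∃ s : Equiv.Perm (Fin N), ∀ k : ℕ,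
        ‖∑ i ∈ univ.filter (fun i : Fin N => (i : ℕ) < k), v (s i)‖ ≤ C * √(d : ℝ)) ∧
    (∀ d : ℕ, 1 ≤ d → ∃ (N : ℕ) (v : Fin N → EuclideanSpace ℝ (Fin d)),
      (∀ a, ‖v a‖ ≤ 1) ∧ ∑ a, v a = 0 ∧
      ∀ s : Equiv.Perm (Fin N), ∃ k : ℕ,
        2 / 5 * √(d : ℝ) ≤ ‖∑ i ∈ univ.filter (fun i : Fin N => (i : ℕ) < k), v (s i)‖) :=
  ⟨Vale.Agent.P262F.steinitz_sharp, Vale.Agent.P262F.lower_all⟩

end Vale.Agent.Results.P262.SteinitzBergstrom
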