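import Vale.Agent.Lib.P262F.Finish
import Vale.Agent.Lib.P262F.Lower

/-! P262: the Euclidean Steinitz constant `S₂(d)`, defined literally as the supremum over all
finite zero-sum families in the unit ball of the minimum over the orderings of the largest norm of
a partial sum, is finite and has order of growth exactly `√d`. -/

namespace Vale.Agent.Results.P262.SteinitzConstant

open Finset

/-- the norm of the sum of the first `k` vectors in the order `v (s 0), v (s 1), …` -/
noncomputable def partialNorm {d N : ℕ} (v : Fin N → EuclideanSpace ℝ (Fin d))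
    (s : Equiv.Perm (Fin N)) (k : ℕ) : ℝ :=
  ‖∑ i : Fin N, if (i : ℕ) < k then v (s i) else 0‖

/-- `β(v) = min_s max_{0 ≤ k ≤ N}` of the norms of the partial sums -/
noncomputable def beta {d N : ℕ} (v : Fin N → EuclideanSpace ℝ (Fin d)) : ℝ :=
  (univ : Finset (Equiv.Perm (Fin N))).inf' univ_nonempty fun s =>
    (range (N + 1)).sup' nonempty_range_add_one fun k => partialNorm v s k

/-- the set of all values `β(v)`, `v` a finite zero-sum family in the closed unit ball of `ℝ^d` -/
def values (d : ℕ) : Set ℝ :=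
  {b | ∃ (N : ℕ) (v : Fin N → EuclideanSpace ℝ (Fin d)),
    (∀ i, v i ∈ Metric.closedBall (0 : EuclideanSpace ℝ (Fin d)) 1) ∧ ∑ i, v i = 0 ∧ b = beta v}

theorem partialNorm_eq {d N : ℕ} (v : Fin N → EuclideanSpace ℝ (Fin d))
    (s : Equiv.Perm (Fin N)) (k : ℕ) :
    partialNorm v s k = ‖∑ i ∈ univ.filter (fun i : Fin N => (i : ℕ) < k), v (s i)‖ := by
  rw [partialNorm, Finset.sum_filter]

theorem partialNorm_min {d N : ℕ} (v : Fin N → EuclideanSpace ℝ (Fin d))
    (s : Equiv.Perm (Fin N)) (k : ℕ) : partialNorm v s k = partialNorm v s (min k N) := by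
  unfold partialNorm
  congr 1
  refine Finset.sum_congr rfl fun i _ => ?_
  have : ((i : ℕ) < k) ↔ ((i : ℕ) < min k N) := by
    have := i.2
    omega
  simp only [this]

theorem result : ∃ C : ℝ, ∀ d : ℕ, 1 ≤ d →
    ∃ S : ℝ, IsLUB (values d) S ∧ 2 / 5 * √(d : ℝ) ≤ S ∧ S ≤ C * √(d : ℝ) := by
  obtain ⟨C, hC⟩ := Vale.Agent.P262F.steinitz_sharp
  refine ⟨C, fun d hd => ?_⟩
  have hub : ∀ b ∈ values d, b ≤ C * √(d : ℝ) := by
    rintro b ⟨N, v, hv, hsum, rfl⟩
    obtain ⟨s, hs⟩ := hC d N v (fun a => by simpa using hv a) hsum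
    refine (Finset.inf'_le _ (mem_univ s)).trans ?_
    refine Finset.sup'_le _ _ fun k _ => ?_
    rw [partialNorm_eq]
    exact hs k
  have hne : (values d).Nonempty := by
    obtain ⟨N, v, hv, hsum, -⟩ := Vale.Agent.P262F.lower_all d hd
    exact ⟨_, N, v, fun i => by simpa using hv i, hsum, rfl⟩
  refine ⟨sSup (values d), isLUB_csSup hne ⟨_, hub⟩, ?_, csSup_le hne hub⟩
  obtain ⟨N, v, hv, hsum, hlow⟩ := Vale.Agent.P262F.lower_all d hd
  refine le_trans ?_ (le_csSup ⟨_, hub⟩ ⟨N, v, fun i => by simpa using hv i, hsum, rfl⟩)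
  refine Finset.le_inf' _ _ fun s _ => ?_
  obtain ⟨k, hk⟩ := hlow s
  rw [← partialNorm_eq, partialNorm_min] at hk
  exact hk.trans (Finset.le_sup' (fun k => partialNorm v s k)
    (mem_range.2 (Nat.lt_succ_of_le (min_le_right k N))))

end Vale.Agent.Results.P262.SteinitzConstant
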