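import Vale.Agent.Lib.P262.Final

/-! P262: the Euclidean Steinitz constant satisfies S_2(d) ≤ C √d (1 + log d). -/

namespace Vale.Agent.Results.P262.SteinitzLog

open Finset

theorem result : ∃ C : ℝ, 0 < C ∧ ∀ d N : ℕ, 1 ≤ d →
    ∀ v : Fin N → EuclideanSpace ℝ (Fin d), (∀ i, ‖v i‖ ≤ 1) → ∑ i, v i = 0 →
      ∃ s : Equiv.Perm (Fin N), ∀ k : ℕ, k ≤ N →
        ‖∑ i ∈ univ.filter (fun i : Fin N => (i : ℕ) < k), v (s i)‖ ≤
          C * (Real.sqrt d * (1 + Real.log d)) := by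
  refine ⟨180000, by norm_num, ?_⟩
  intro d N hd v hv hsum
  obtain ⟨s, hs⟩ := Vale.Agent.P262.steinitz_perm d hd v hv hsum
  exact ⟨s, fun k _ => hs k⟩

end Vale.Agent.Results.P262.SteinitzLog
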